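import Vale.Agent.Lib.P012_helper5.Defs

/-!
# P012c, module N1: elementary counting of multiples
-/

namespace Vale.Agent.Lib.P012c

open Finset

/-- union bound over a family of moduli. -/
theorem card_le_sum_div {ι : Type*} [DecidableEq ι] (X : ℕ) (I : Finset ι) (d : ι → ℕ) (T : Finset ℕ)
    (hT : T ⊆ Icc 1 X) (h : ∀ g ∈ T, ∃ n ∈ I, d n ∣ g) : T.card ≤ ∑ n ∈ I, X / d n := by
  have hsub : T ⊆ I.biUnion (fun n => (Ioc 0 X).filter (fun x => d n ∣ x)) := by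
    intro g hg
    obtain ⟨n, hn, hd⟩ := h g hg
    have h1 := Finset.mem_Icc.1 (hT hg)
    exact Finset.mem_biUnion.2 ⟨n, hn, Finset.mem_filter.2 ⟨Finset.mem_Ioc.2 ⟨by omega, h1.2⟩, hd⟩⟩
  calc T.card ≤ (I.biUnion (fun n => (Ioc 0 X).filter (fun x => d n ∣ x))).card :=
        Finset.card_le_card hsub
    _ ≤ ∑ n ∈ I, ((Ioc 0 X).filter (fun x => d n ∣ x)).card := Finset.card_biUnion_le
    _ = ∑ n ∈ I, X / d n := by
        apply Finset.sum_congr rfl
        intro n _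
        exact Nat.Ioc_filter_dvd_card_eq_div X (d n)

theorem sum_inv_sq_aux (y X : ℕ) (hy : 1 ≤ y) (hX : y ≤ X) :
    ∑ n ∈ Ioc y X, (1 : ℝ) / (n : ℝ) ^ 2 ≤ 1 / y - 1 / X := by
  induction X, hX using Nat.le_induction with
  | base => simp
  | succ X hX ih =>
    have hins : Ioc y (X + 1) = insert (X + 1) (Ioc y X) := by
      ext n
      simp only [Finset.mem_Ioc, Finset.mem_insert]
      omega
    rw [hins, Finset.sum_insert (by simp)]
    have hXpos : (0 : ℝ) < X := by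
      have : 0 < X := by omega
      exact_mod_cast this
    have h1 : (1 : ℝ) / ((X + 1 : ℕ) : ℝ) ^ 2 ≤ 1 / X - 1 / ((X + 1 : ℕ) : ℝ) := by
      push_cast
      rw [div_sub_div _ _ hXpos.ne' (by positivity), div_le_div_iff₀ (by positivity) (by positivity)]
      nlinarith
    linarith

theorem sum_inv_sq_le (y X : ℕ) (hy : 1 ≤ y) :
    ∑ n ∈ Ioc y X, (1 : ℝ) / (n : ℝ) ^ 2 ≤ 1 / y := by
  by_cases hX : y ≤ X
  · have h := sum_inv_sq_aux y X hy hX
    have : (0 : ℝ) ≤ 1 / X := by positivity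
    linarith
  · rw [Finset.Ioc_eq_empty (by omega)]
    simp

theorem count_sq_dvd (X y : ℕ) (hy : 1 ≤ y) (T : Finset ℕ) (hT : T ⊆ Icc 1 X)
    (h : ∀ g ∈ T, ∃ n, y < n ∧ n ^ 2 ∣ g) : T.card * y ≤ X := by
  have h1 : T.card ≤ ∑ n ∈ Ioc y X, X / n ^ 2 := by
    apply card_le_sum_div X (Ioc y X) (fun n => n ^ 2) T hT
    intro g hg
    obtain ⟨n, hn, hd⟩ := h g hg
    have hg1 := Finset.mem_Icc.1 (hT hg)
    have h2 : n ^ 2 ≤ g := Nat.le_of_dvd (by omega) hd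
    have h3 : n ≤ n ^ 2 := Nat.le_self_pow (by norm_num) n
    exact ⟨n, Finset.mem_Ioc.2 ⟨hn, by omega⟩, hd⟩
  have hyR : (0 : ℝ) < y := by exact_mod_cast hy
  have h2 : (T.card : ℝ) ≤ X * (1 / y) := by
    calc (T.card : ℝ) ≤ ((∑ n ∈ Ioc y X, X / n ^ 2 : ℕ) : ℝ) := by exact_mod_cast h1
      _ = ∑ n ∈ Ioc y X, ((X / n ^ 2 : ℕ) : ℝ) := by push_cast; rfl
      _ ≤ ∑ n ∈ Ioc y X, (X : ℝ) * (1 / (n : ℝ) ^ 2) := by
          apply Finset.sum_le_sum
          intro n _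
          have := Nat.cast_div_le (α := ℝ) (m := X) (n := n ^ 2)
          push_cast at this
          rw [mul_one_div]
          exact this
      _ = X * ∑ n ∈ Ioc y X, (1 : ℝ) / (n : ℝ) ^ 2 := by rw [Finset.mul_sum]
      _ ≤ X * (1 / y) := by
          apply mul_le_mul_of_nonneg_left (sum_inv_sq_le y X hy) (by positivity)
  have h3 : (T.card : ℝ) * y ≤ X := by
    calc (T.card : ℝ) * y ≤ X * (1 / y) * y := by
          apply mul_le_mul_of_nonneg_right h2 hyR.le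
      _ = X := by field_simp
  exact_mod_cast h3

theorem count_pow_dvd (X E : ℕ) (hE : 1 ≤ E) (T : Finset ℕ) (hT : T ⊆ Icc 1 X)
    (h : ∀ g ∈ T, ∃ n, 2 ≤ n ∧ n ^ (E + 1) ∣ g) : T.card * 2 ^ (E - 1) ≤ X := by
  have h1 : T.card ≤ ∑ n ∈ Ioc 1 X, X / n ^ (E + 1) := by
    apply card_le_sum_div X (Ioc 1 X) (fun n => n ^ (E + 1)) T hT
    intro g hg
    obtain ⟨n, hn, hd⟩ := h g hg
    have hg1 := Finset.mem_Icc.1 (hT hg)
    have h2 : n ^ (E + 1) ≤ g := Nat.le_of_dvd (by omega) hd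
    have h3 : n ≤ n ^ (E + 1) := Nat.le_self_pow (by omega) n
    exact ⟨n, Finset.mem_Ioc.2 ⟨by omega, by omega⟩, hd⟩
  have hpow : (0 : ℝ) < 2 ^ (E - 1) := by positivity
  have h2 : (T.card : ℝ) * 2 ^ (E - 1) ≤ X * (1 / (1 : ℕ)) := by
    calc (T.card : ℝ) * 2 ^ (E - 1)
        ≤ ((∑ n ∈ Ioc 1 X, X / n ^ (E + 1) : ℕ) : ℝ) * 2 ^ (E - 1) := by
          apply mul_le_mul_of_nonneg_right _ hpow.le
          exact_mod_cast h1
      _ = ∑ n ∈ Ioc 1 X, ((X / n ^ (E + 1) : ℕ) : ℝ) * 2 ^ (E - 1) := by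
          push_cast
          rw [Finset.sum_mul]
      _ ≤ ∑ n ∈ Ioc 1 X, (X : ℝ) * (1 / (n : ℝ) ^ 2) := by
          apply Finset.sum_le_sum
          intro n hn
          have hn2 : 2 ≤ n := by
            have := (Finset.mem_Ioc.1 hn).1
            omega
          have hnR : (2 : ℝ) ≤ n := by exact_mod_cast hn2
          have h3 := Nat.cast_div_le (α := ℝ) (m := X) (n := n ^ (E + 1))
          push_cast at h3
          have h4 : (n : ℝ) ^ (E + 1) = (n : ℝ) ^ (E - 1) * (n : ℝ) ^ 2 := by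
            rw [← pow_add]
            congr 1
            omega
          have h5 : (2 : ℝ) ^ (E - 1) ≤ (n : ℝ) ^ (E - 1) := pow_le_pow_left₀ (by norm_num) hnR _
          have hn0 : (0 : ℝ) < (n : ℝ) ^ 2 := by positivity
          have hn1 : (0 : ℝ) < (n : ℝ) ^ (E - 1) := by positivity
          calc ((X / n ^ (E + 1) : ℕ) : ℝ) * 2 ^ (E - 1)
              ≤ (X : ℝ) / (n : ℝ) ^ (E + 1) * (n : ℝ) ^ (E - 1) := by
                apply mul_le_mul h3 h5 hpow.le (by positivity)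
            _ = (X : ℝ) * (1 / (n : ℝ) ^ 2) := by
                rw [h4]
                field_simp
      _ = X * ∑ n ∈ Ioc 1 X, (1 : ℝ) / (n : ℝ) ^ 2 := by rw [Finset.mul_sum]
      _ ≤ X * (1 / (1 : ℕ)) := by
          apply mul_le_mul_of_nonneg_left (sum_inv_sq_le 1 X le_rfl) (by positivity)
  have h3 : (T.card : ℝ) * 2 ^ (E - 1) ≤ X := by simpa using h2
  exact_mod_cast h3

theorem count_src_dvd (X Y : ℕ) (P : Finset ℕ) (hP : ∀ p ∈ P, Y < p) (T : Finset ℕ)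
    (hT : T ⊆ Icc 1 X) (h : ∀ g ∈ T, ∃ p ∈ P, p ∣ g) : T.card * Y ≤ X * P.card := by
  have h1 : T.card ≤ ∑ p ∈ P, X / p := card_le_sum_div X P (fun p => p) T hT h
  calc T.card * Y ≤ (∑ p ∈ P, X / p) * Y := Nat.mul_le_mul_right _ h1
    _ = ∑ p ∈ P, X / p * Y := by rw [Finset.sum_mul]
    _ ≤ ∑ _p ∈ P, X := by
        apply Finset.sum_le_sum
        intro p hp
        calc X / p * Y ≤ X / p * p := Nat.mul_le_mul_left _ (hP p hp).le
          _ ≤ X := Nat.div_mul_le_self X p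
    _ = X * P.card := by rw [Finset.sum_const, smul_eq_mul, mul_comm]

end Vale.Agent.Lib.P012c
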