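import Vale.Agent.Lib.P012_helper15.CDensityCore
import Vale.Agent.Lib.P012_helper20.CCountOmega
import Vale.Agent.Lib.P012_helper11.CBad2

/-!
# P012c, module DN: the bad numerators have density at most `2 ^ (-11)` on every initial segment
-/

namespace Vale.Agent.Lib.P012c

open Finset
open Vale.Agent.Lib.P012b

theorem density (y₀ y E K θ n Y w₁ w₂ : ℕ) (P A₁ B₁ A₂ B₂ : Finset ℕ)
    (hE : 17 ≤ E) (hy : y₀ ^ 4 ≤ y) (hy16 : 2 ^ 16 ≤ y) (hK : n + 15 ≤ K)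
    (hP : ∀ p ∈ P, Y < p) (hPY : P.card * 2 ^ 15 ≤ Y)
    (hA₁ : ∀ a ∈ A₁, a < 2 ^ w₁) (hB₁ : ∀ a ∈ B₁, a < 2 ^ w₁) (hw₁ : 2 ^ 16 * w₁ ≤ y₀)
    (hA₂ : ∀ a ∈ A₂, a < 2 ^ w₂) (hB₂ : ∀ a ∈ B₂, a < 2 ^ w₂)
    (hθ : (w₂ + 1) ^ K * 2 ^ 15 ≤ θ) :
    ∀ X < 2 ^ 2 ^ n, ∀ T ⊆ Icc 1 X, (∀ g ∈ T, ¬ Good y E K (θ ^ 4) P A₁ B₁ A₂ B₂ g) →
      T.card * 2 ^ 11 ≤ X :=
  density_core
    (fun X K n hX T hT h => count_omega X K n hX T hT h)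
    (fun A w y₀ y X hA hy hw T hT h => bad1_count A w y₀ y X hA hy hw T hT h)
    (fun A w K θ X hA hθ T hT h => bad2_count A w K θ X hA hθ T hT h)
    y₀ y E K θ n Y w₁ w₂ P A₁ B₁ A₂ B₂ hE hy hy16 hK hP hPY hA₁ hB₁ hw₁ hA₂ hB₂ hθ

end Vale.Agent.Lib.P012c
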