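import Vale.Agent.Lib.P012_helper15.CCountBasic

/-!
# P012c, module DN (core): union bound over the eight classes of bad numerators.
The three counting statements N2, N3, N4 enter as hypotheses `H2`, `H3`, `H4`.
-/

namespace Vale.Agent.Lib.P012c

open Finset
open Vale.Agent.Lib.P012b

theorem density_core
    (H2 : ∀ (X K n : ℕ), X < 2 ^ 2 ^ n → ∀ T : Finset ℕ, T ⊆ Icc 1 X →
      (∀ g ∈ T, K < g.primeFactors.card) → T.card * 2 ^ (K + 1) ≤ X * 2 ^ (n + 1))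
    (H3 : ∀ (A : Finset ℕ) (w y₀ y X : ℕ), (∀ a ∈ A, a < 2 ^ w) → y₀ ^ 4 ≤ y →
      2 ^ 16 * w ≤ y₀ → ∀ T : Finset ℕ, T ⊆ Icc 1 X →
      (∀ g ∈ T, ∃ Q ⊆ g.primeFactors, Q.Nonempty ∧ (∀ q ∈ Q, y < q) ∧ ¬ NB Q A) →
      T.card * 2 ^ 15 ≤ X)
    (H4 : ∀ (A : Finset ℕ) (w K θ X : ℕ), (∀ a ∈ A, a < 2 ^ w) →
      (w + 1) ^ K * 2 ^ 15 ≤ θ → ∀ T : Finset ℕ, T ⊆ Icc 1 X →
      (∀ g ∈ T, g.primeFactors.card ≤ K ∧ ∃ Q ⊆ g.primeFactors,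
        θ ^ 4 < ∏ q ∈ Q, q ∧ ¬ NB Q A) →
      T.card * 2 ^ 15 ≤ X)
    (y₀ y E K θ n Y w₁ w₂ : ℕ) (P A₁ B₁ A₂ B₂ : Finset ℕ)
    (hE : 17 ≤ E) (hy : y₀ ^ 4 ≤ y) (hy16 : 2 ^ 16 ≤ y) (hK : n + 15 ≤ K)
    (hP : ∀ p ∈ P, Y < p) (hPY : P.card * 2 ^ 15 ≤ Y)
    (hA₁ : ∀ a ∈ A₁, a < 2 ^ w₁) (hB₁ : ∀ a ∈ B₁, a < 2 ^ w₁) (hw₁ : 2 ^ 16 * w₁ ≤ y₀)
    (hA₂ : ∀ a ∈ A₂, a < 2 ^ w₂) (hB₂ : ∀ a ∈ B₂, a < 2 ^ w₂)
    (hθ : (w₂ + 1) ^ K * 2 ^ 15 ≤ θ) :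
    ∀ X < 2 ^ 2 ^ n, ∀ T ⊆ Icc 1 X, (∀ g ∈ T, ¬ Good y E K (θ ^ 4) P A₁ B₁ A₂ B₂ g) →
      T.card * 2 ^ 11 ≤ X := by
  classical
  intro X hX T hT hbad
  set F1 := T.filter (fun g => ∃ m, 2 ≤ m ∧ m ^ (E + 1) ∣ g) with hF1
  set F2 := T.filter (fun g => ∃ m, y < m ∧ m ^ 2 ∣ g) with hF2
  set F3 := T.filter (fun g => K < g.primeFactors.card) with hF3
  set F4 := T.filter (fun g => ∃ p ∈ P, p ∣ g) with hF4
  set F5 := T.filter (fun g => ∃ Q ⊆ g.primeFactors, Q.Nonempty ∧ (∀ q ∈ Q, y < q) ∧ ¬ NB Q A₁)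
    with hF5
  set F6 := T.filter (fun g => ∃ Q ⊆ g.primeFactors, Q.Nonempty ∧ (∀ q ∈ Q, y < q) ∧ ¬ NB Q B₁)
    with hF6
  set F7 := T.filter (fun g => g.primeFactors.card ≤ K ∧ ∃ Q ⊆ g.primeFactors,
        θ ^ 4 < ∏ q ∈ Q, q ∧ ¬ NB Q A₂) with hF7
  set F8 := T.filter (fun g => g.primeFactors.card ≤ K ∧ ∃ Q ⊆ g.primeFactors,
        θ ^ 4 < ∏ q ∈ Q, q ∧ ¬ NB Q B₂) with hF8
  have b1 : F1.card * 2 ^ 15 ≤ X := by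
    have h := count_pow_dvd X E (by omega) F1 ((Finset.filter_subset _ _).trans hT) (fun g hg => (Finset.mem_filter.1 hg).2)
    have h2 : (2 : ℕ) ^ 15 ≤ 2 ^ (E - 1) := Nat.pow_le_pow_right (by norm_num) (by omega)
    exact (Nat.mul_le_mul_left _ h2).trans h
  have b2 : F2.card * 2 ^ 15 ≤ X := by
    have h := count_sq_dvd X y (Nat.one_le_two_pow.trans hy16) F2 ((Finset.filter_subset _ _).trans hT)
      (fun g hg => (Finset.mem_filter.1 hg).2)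
    have h2 : (2 : ℕ) ^ 15 ≤ y := le_trans (by norm_num) hy16
    exact (Nat.mul_le_mul_left _ h2).trans h
  have b3 : F3.card * 2 ^ 15 ≤ X := by
    have h := H2 X K n hX F3 ((Finset.filter_subset _ _).trans hT) (fun g hg => (Finset.mem_filter.1 hg).2)
    have h2 : (2 : ℕ) ^ 15 * 2 ^ (n + 1) ≤ 2 ^ (K + 1) := by
      rw [← pow_add]
      exact Nat.pow_le_pow_right (by norm_num) (by omega)
    have h3 : F3.card * 2 ^ 15 * 2 ^ (n + 1) ≤ X * 2 ^ (n + 1) := by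
      calc F3.card * 2 ^ 15 * 2 ^ (n + 1) = F3.card * (2 ^ 15 * 2 ^ (n + 1)) := by ring
        _ ≤ F3.card * 2 ^ (K + 1) := Nat.mul_le_mul_left _ h2
        _ ≤ _ := h
    exact Nat.le_of_mul_le_mul_right h3 (by positivity)
  have b4 : F4.card * 2 ^ 15 ≤ X := by
    have h := count_src_dvd X Y P hP F4 ((Finset.filter_subset _ _).trans hT) (fun g hg => (Finset.mem_filter.1 hg).2)
    rcases Nat.eq_zero_or_pos P.card with h0 | h0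
    · have hPe : P = ∅ := Finset.card_eq_zero.1 h0
      have : F4 = ∅ := by
        rw [hF4, hPe]
        simp
      rw [this]
      simp
    · have h3 : F4.card * 2 ^ 15 * P.card ≤ X * P.card := by
        calc F4.card * 2 ^ 15 * P.card = F4.card * (P.card * 2 ^ 15) := by ring
          _ ≤ F4.card * Y := Nat.mul_le_mul_left _ hPY
          _ ≤ _ := h
      exact Nat.le_of_mul_le_mul_right h3 h0
  have b5 : F5.card * 2 ^ 15 ≤ X :=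
    H3 A₁ w₁ y₀ y X hA₁ hy hw₁ F5 ((Finset.filter_subset _ _).trans hT) (fun g hg => (Finset.mem_filter.1 hg).2)
  have b6 : F6.card * 2 ^ 15 ≤ X :=
    H3 B₁ w₁ y₀ y X hB₁ hy hw₁ F6 ((Finset.filter_subset _ _).trans hT) (fun g hg => (Finset.mem_filter.1 hg).2)
  have b7 : F7.card * 2 ^ 15 ≤ X :=
    H4 A₂ w₂ K θ X hA₂ hθ F7 ((Finset.filter_subset _ _).trans hT) (fun g hg => (Finset.mem_filter.1 hg).2)
  have b8 : F8.card * 2 ^ 15 ≤ X :=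
    H4 B₂ w₂ K θ X hB₂ hθ F8 ((Finset.filter_subset _ _).trans hT) (fun g hg => (Finset.mem_filter.1 hg).2)
  have hcover : T ⊆ F1 ∪ F2 ∪ F3 ∪ F4 ∪ F5 ∪ F6 ∪ F7 ∪ F8 := by
    intro g hg
    by_contra hcon
    simp only [Finset.mem_union, not_or] at hcon
    obtain ⟨⟨⟨⟨⟨⟨⟨n1, n2⟩, n3⟩, n4⟩, n5⟩, n6⟩, n7⟩, n8⟩ := hcon
    have m1 : ¬ ∃ m, 2 ≤ m ∧ m ^ (E + 1) ∣ g := fun h => n1 (Finset.mem_filter.2 ⟨hg, h⟩)
    have m2 : ¬ ∃ m, y < m ∧ m ^ 2 ∣ g := fun h => n2 (Finset.mem_filter.2 ⟨hg, h⟩)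
    have m3 : ¬ K < g.primeFactors.card := fun h => n3 (Finset.mem_filter.2 ⟨hg, h⟩)
    have m4 : ¬ ∃ p ∈ P, p ∣ g := fun h => n4 (Finset.mem_filter.2 ⟨hg, h⟩)
    have m5 : ¬ ∃ Q ⊆ g.primeFactors, Q.Nonempty ∧ (∀ q ∈ Q, y < q) ∧ ¬ NB Q A₁ :=
      fun h => n5 (Finset.mem_filter.2 ⟨hg, h⟩)
    have m6 : ¬ ∃ Q ⊆ g.primeFactors, Q.Nonempty ∧ (∀ q ∈ Q, y < q) ∧ ¬ NB Q B₁ :=
      fun h => n6 (Finset.mem_filter.2 ⟨hg, h⟩)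
    have m7 : ¬ (g.primeFactors.card ≤ K ∧ ∃ Q ⊆ g.primeFactors,
        θ ^ 4 < ∏ q ∈ Q, q ∧ ¬ NB Q A₂) := fun h => n7 (Finset.mem_filter.2 ⟨hg, h⟩)
    have m8 : ¬ (g.primeFactors.card ≤ K ∧ ∃ Q ⊆ g.primeFactors,
        θ ^ 4 < ∏ q ∈ Q, q ∧ ¬ NB Q B₂) := fun h => n8 (Finset.mem_filter.2 ⟨hg, h⟩)
    apply hbad g hg
    refine ⟨fun m hm hd => m1 ⟨m, hm, hd⟩, fun m hm hd => m2 ⟨m, hm, hd⟩, not_lt.1 m3,
      fun p hp hd => m4 ⟨p, hp, hd⟩, ?_⟩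
    intro Q hQ hne hQy
    refine ⟨?_, ?_, ?_⟩
    · by_contra hnb
      exact m5 ⟨Q, hQ, hne, hQy, hnb⟩
    · by_contra hnb
      exact m6 ⟨Q, hQ, hne, hQy, hnb⟩
    · intro hbig
      constructor
      · by_contra hnb
        exact m7 ⟨not_lt.1 m3, Q, hQ, hbig, hnb⟩
      · by_contra hnb
        exact m8 ⟨not_lt.1 m3, Q, hQ, hbig, hnb⟩
  have hc := Finset.card_le_card hcover
  have u7 := Finset.card_union_le (F1 ∪ F2 ∪ F3 ∪ F4 ∪ F5 ∪ F6 ∪ F7) F8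
  have u6 := Finset.card_union_le (F1 ∪ F2 ∪ F3 ∪ F4 ∪ F5 ∪ F6) F7
  have u5 := Finset.card_union_le (F1 ∪ F2 ∪ F3 ∪ F4 ∪ F5) F6
  have u4 := Finset.card_union_le (F1 ∪ F2 ∪ F3 ∪ F4) F5
  have u3 := Finset.card_union_le (F1 ∪ F2 ∪ F3) F4
  have u2 := Finset.card_union_le (F1 ∪ F2) F3
  have u1 := Finset.card_union_le F1 F2
  have e15 : (2 : ℕ) ^ 15 = 32768 := by norm_num
  have e11 : (2 : ℕ) ^ 11 = 2048 := by norm_num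
  rw [e15] at b1 b2 b3 b4 b5 b6 b7 b8
  rw [e11]
  clear hX hbad hcover hθ hy hy16 hw₁ hPY hA₁ hB₁ hA₂ hB₂ H2 H3 H4
  clear hF1 hF2 hF3 hF4 hF5 hF6 hF7 hF8 e15 e11
  clear_value F1 F2 F3 F4 F5 F6 F7 F8
  linarith

end Vale.Agent.Lib.P012c
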