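import Mathlib

/-!
# P012 (short Egyptian fractions): common definitions

`ι` is a finite index type, `p : ι → ℕ` an injective family of primes.
A *system* is a choice of a Dirichlet character modulo each `p a`.
`ev χ n` is the value at `n` of the primitive character attached to the system:
trivial components are ignored.
-/

namespace Vale.Agent.Lib.P012

open Finset

noncomputable section

open Classical in
/-- local factor: a trivial component contributes the constant `1`. -/
def loc {q : ℕ} (ψ : DirichletCharacter ℂ q) (n : ℕ) : ℂ :=
  if ψ = 1 then 1 else ψ (n : ZMod q)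

variable {ι : Type} [Fintype ι] [DecidableEq ι]

/-- a system of characters, one for each modulus `p a`. -/
abbrev Sys (p : ι → ℕ) : Type := (a : ι) → DirichletCharacter ℂ (p a)

open Classical in
/-- the support of a system: the indices with a nontrivial component. -/
def supp {p : ι → ℕ} (χ : Sys p) : Finset ι := univ.filter (fun a => χ a ≠ 1)

/-- value of the (primitive) character attached to a system. -/
def ev {p : ι → ℕ} (χ : Sys p) (n : ℕ) : ℂ := ∏ a, loc (χ a) n

/-- a system is bad if its sum over the family of primes is larger than half the trivial bound. -/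
def bad {p : ι → ℕ} (χ : Sys p) : Prop :=
  (Fintype.card ι : ℝ) / 2 < ‖∑ a, ev χ (p a)‖

end

/-- Interface between the selection of primes and the recursion: `P 0, ..., P (s-1)` are distinct
primes in `[5, X]`, and for every block `P n, ..., P (n+j-1)` with `K * j ≤ n`, every choice of
nonzero residues modulo the block primes is attained by a product of a subset of
`P 0, ..., P (n-1)`. -/
structure GoodSeq (P : ℕ → ℕ) (s K X : ℕ) : Prop where
  prime : ∀ i < s, (P i).Prime
  five_le : ∀ i < s, 5 ≤ P i
  le : ∀ i < s, P i ≤ X
  inj : ∀ i < s, ∀ i' < s, P i = P i' → i = i'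
  cov : ∀ n j, 1 ≤ j → K * j ≤ n → n + j ≤ s → ∀ u : ℕ → ℕ,
    (∀ i, n ≤ i → i < n + j → ¬ P i ∣ u i) →
    ∃ S ⊆ range n, ∀ i, n ≤ i → i < n + j → (∏ k ∈ S, P k) ≡ u i [MOD P i]

end Vale.Agent.Lib.P012
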