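import Vale.Agent.Lib.P012_helper21.BadCount

namespace Vale.Agent.Lib.P012

open Finset

variable {ι : Type} [Fintype ι] [DecidableEq ι]

/-- abstract greedy choice (method of conditional expectations). -/
theorem greedy_abstract [Nonempty ι] (Xi : ℕ → Finset ι → ℝ) (s : ℕ) (hs : s ≤ Fintype.card ι)
    (step : ∀ n < s, ∀ R : Finset ι, R.card = n →
      ∑ a ∈ Rᶜ, Xi (n + 1) (insert a R) ≤ ((Fintype.card ι : ℝ) - n) * Xi n R) :
    ∃ r : ℕ → ι, Set.InjOn r (Set.Iio s) ∧
      ∀ n ≤ s, Xi n ((range n).image r) ≤ Xi 0 ∅ := by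
  have key : ∀ n ≤ s, ∃ r : ℕ → ι, Set.InjOn r (Set.Iio n) ∧
      ∀ m ≤ n, Xi m ((range m).image r) ≤ Xi 0 ∅ := by
    intro n
    induction n with
    | zero =>
      intro _
      refine ⟨fun _ => Classical.arbitrary ι, ?_, ?_⟩
      · intro x hx
        simp at hx
      · intro m hm
        have : m = 0 := by omega
        subst this
        simp
    | succ n ih =>
      intro hn
      obtain ⟨r, hinj, hr⟩ := ih (by omega)
      set R := (range n).image r with hR
      have hcard : R.card = n := by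
        rw [hR, card_image_of_injOn, card_range]
        intro x hx y hy hxy
        exact hinj (by simpa using hx) (by simpa using hy) hxy
      have hst := step n (by omega) R hcard
      have hcc : (Rᶜ).card = Fintype.card ι - n := by
        rw [card_compl, hcard]
      have hne : (Rᶜ).Nonempty := by
        rw [← card_pos, hcc]
        omega
      have hsum : ∑ a ∈ Rᶜ, Xi (n + 1) (insert a R) ≤ ∑ _a ∈ Rᶜ, Xi n R := by
        rw [sum_const, hcc, nsmul_eq_mul, Nat.cast_sub (by omega)]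
        exact hst
      obtain ⟨a, haR, ha⟩ := exists_le_of_sum_le hne hsum
      have haR' : a ∉ R := by simpa using haR
      refine ⟨Function.update r n a, ?_, ?_⟩
      · intro x hx y hy hxy
        have hx' : x < n + 1 := hx
        have hy' : y < n + 1 := hy
        by_cases hxn : x = n
        · by_cases hyn : y = n
          · omega
          · exfalso
            rw [hxn, Function.update_self, Function.update_of_ne hyn] at hxy
            apply haR'
            rw [hxy, hR]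
            exact mem_image_of_mem _ (by simp; omega)
        · by_cases hyn : y = n
          · exfalso
            rw [hyn, Function.update_self, Function.update_of_ne hxn] at hxy
            apply haR'
            rw [← hxy, hR]
            exact mem_image_of_mem _ (by simp; omega)
          · rw [Function.update_of_ne hxn, Function.update_of_ne hyn] at hxy
            exact hinj (show x < n by omega) (show y < n by omega) hxy
      · intro m hm
        have himg : ∀ m ≤ n, (range m).image (Function.update r n a) = (range m).image r := by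
          intro m hm
          apply image_congr
          intro x hx
          have : x < m := by simpa using hx
          exact Function.update_of_ne (by omega) _ _
        by_cases hmn : m ≤ n
        · rw [himg m hmn]
          exact hr m hmn
        · have hm' : m = n + 1 := by omega
          subst hm'
          rw [range_add_one, image_insert, Function.update_self, himg n le_rfl]
          exact ha.trans (hr n le_rfl)
  exact key s le_rfl

/-- the factor by which a chosen prime multiplies the potential of a system. -/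
noncomputable def tt {p : ι → ℕ} (χ : Sys p) (a : ι) : ℝ := ‖1 + ev χ (p a)‖ ^ 2 / 4

theorem tt_nonneg {p : ι → ℕ} (χ : Sys p) (a : ι) : 0 ≤ tt χ a := by
  unfold tt
  positivity

theorem sum_tt_le {p : ι → ℕ} (χ : Sys p) (h : ¬ bad χ) :
    ∑ a, tt χ a ≤ 3 / 4 * (Fintype.card ι : ℝ) := by
  have h1 : ∀ a, tt χ a ≤ (2 + 2 * (ev χ (p a)).re) / 4 := by
    intro a
    unfold tt
    have hz := norm_ev_le_one p χ (p a)
    have h2 : ‖1 + ev χ (p a)‖ ^ 2 = 1 + ‖ev χ (p a)‖ ^ 2 + 2 * (ev χ (p a)).re := by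
      rw [Complex.sq_norm, Complex.sq_norm, Complex.normSq_add]
      simp
    have h3 : ‖ev χ (p a)‖ ^ 2 ≤ 1 := by
      have := norm_nonneg (ev χ (p a))
      nlinarith
    rw [h2]
    linarith
  have h4 : ∑ a, (ev χ (p a)).re ≤ (Fintype.card ι : ℝ) / 2 := by
    have h5 : ‖∑ a, ev χ (p a)‖ ≤ (Fintype.card ι : ℝ) / 2 := by
      unfold bad at h
      linarith
    have h6 : (∑ a, ev χ (p a)).re ≤ ‖∑ a, ev χ (p a)‖ := Complex.re_le_norm _
    rw [Complex.re_sum] at h6
    linarith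
  calc ∑ a, tt χ a ≤ ∑ a, (2 + 2 * (ev χ (p a)).re) / 4 := sum_le_sum (fun a _ => h1 a)
    _ = (2 * (Fintype.card ι : ℝ) + 2 * ∑ a, (ev χ (p a)).re) / 4 := by
        rw [← sum_div, sum_add_distrib, ← mul_sum]
        simp [mul_comm]
    _ ≤ 3 / 4 * (Fintype.card ι : ℝ) := by linarith

theorem psi_step {p : ι → ℕ} (G : Finset (Sys p)) (hG : ∀ χ ∈ G, ¬ bad χ) (wt : Sys p → ℝ)
    (hwt : ∀ χ, 0 ≤ wt χ) (R : Finset ι) :
    ∑ a ∈ Rᶜ, ∑ χ ∈ G, wt χ * ∏ a' ∈ insert a R, tt χ a' ≤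
      3 / 4 * (Fintype.card ι : ℝ) * ∑ χ ∈ G, wt χ * ∏ a' ∈ R, tt χ a' := by
  rw [sum_comm, mul_sum]
  apply sum_le_sum
  intro χ hχ
  have h1 : ∀ a ∈ Rᶜ, wt χ * ∏ a' ∈ insert a R, tt χ a' =
      (wt χ * ∏ a' ∈ R, tt χ a') * tt χ a := by
    intro a ha
    rw [prod_insert (by simpa using ha)]
    ring
  rw [sum_congr rfl h1, ← mul_sum]
  have h2 : ∑ a ∈ Rᶜ, tt χ a ≤ 3 / 4 * (Fintype.card ι : ℝ) :=
    (sum_le_sum_of_subset_of_nonneg (subset_univ _) (fun a _ _ => tt_nonneg χ a)).trans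
      (sum_tt_le χ (hG χ hχ))
  have h3 : 0 ≤ wt χ * ∏ a' ∈ R, tt χ a' :=
    mul_nonneg (hwt χ) (prod_nonneg (fun a _ => tt_nonneg χ a))
  calc (wt χ * ∏ a' ∈ R, tt χ a') * ∑ a ∈ Rᶜ, tt χ a
      ≤ (wt χ * ∏ a' ∈ R, tt χ a') * (3 / 4 * (Fintype.card ι : ℝ)) :=
        mul_le_mul_of_nonneg_left h2 h3
    _ = 3 / 4 * (Fintype.card ι : ℝ) * (wt χ * ∏ a' ∈ R, tt χ a') := by ring

theorem theta_step {p : ι → ℕ} (Bd : Finset (Sys p)) (s : ℕ) (hBd : ∀ χ ∈ Bd, (supp χ).card ≤ s)
    (lam : ℝ) (hlam : 0 < lam) (R : Finset ι) :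
    ∑ a ∈ Rᶜ, ∑ χ ∈ Bd, lam ^ (supp χ \ insert a R).card ≤
      (((Fintype.card ι : ℝ) - R.card) + s / lam) * ∑ χ ∈ Bd, lam ^ (supp χ \ R).card := by
  rw [sum_comm, mul_sum]
  apply sum_le_sum
  intro χ hχ
  set k := (supp χ \ R).card with hk
  have h1 : ∀ a ∈ Rᶜ, lam ^ (supp χ \ insert a R).card ≤
      lam ^ k + (if a ∈ supp χ \ R then lam ^ k / lam else 0) := by
    intro a _
    rw [sdiff_insert]
    split_ifs with h
    · rw [card_erase_of_mem h, ← hk]
      have hk1 : 1 ≤ k := by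
        rw [hk]
        exact card_pos.mpr ⟨a, h⟩
      have : lam ^ k / lam = lam ^ (k - 1) := by
        obtain ⟨k', hk'⟩ : ∃ k', k = k' + 1 := ⟨k - 1, by omega⟩
        rw [hk', pow_succ]
        field_simp
        simp
      rw [this]
      have := pow_pos hlam k
      linarith
    · rw [erase_eq_of_notMem h, ← hk]
      simp
  have h2 : ∑ a ∈ Rᶜ, (if a ∈ supp χ \ R then lam ^ k / lam else 0) ≤ k * (lam ^ k / lam) := by
    rw [← sum_filter, sum_const, nsmul_eq_mul]
    apply mul_le_mul_of_nonneg_right _ (by positivity)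
    rw [hk]
    exact_mod_cast card_le_card (fun a ha => (mem_filter.mp ha).2)
  have h3 : (k : ℝ) ≤ s := by
    have : k ≤ (supp χ).card := card_le_card sdiff_subset
    exact_mod_cast this.trans (hBd χ hχ)
  have h4 : ((Rᶜ).card : ℝ) = (Fintype.card ι : ℝ) - R.card := by
    rw [card_compl, Nat.cast_sub (card_le_univ R)]
  calc ∑ a ∈ Rᶜ, lam ^ (supp χ \ insert a R).card
      ≤ ∑ a ∈ Rᶜ, (lam ^ k + (if a ∈ supp χ \ R then lam ^ k / lam else 0)) := sum_le_sum h1
    _ = ((Fintype.card ι : ℝ) - R.card) * lam ^ k +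
          ∑ a ∈ Rᶜ, (if a ∈ supp χ \ R then lam ^ k / lam else 0) := by
        rw [sum_add_distrib, sum_const, nsmul_eq_mul, h4]
    _ ≤ ((Fintype.card ι : ℝ) - R.card) * lam ^ k + s * (lam ^ k / lam) := by
        have : (k : ℝ) * (lam ^ k / lam) ≤ s * (lam ^ k / lam) :=
          mul_le_mul_of_nonneg_right h3 (by positivity)
        linarith
    _ = (((Fintype.card ι : ℝ) - R.card) + s / lam) * lam ^ k := by ring

theorem card_le_of_primes (p : ι → ℕ) (hp : ∀ a, (p a).Prime) (hinj : Function.Injective p)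
    (X : ℕ) (hX : ∀ a, p a ≤ X) : Fintype.card ι ≤ X := by
  have h : (univ : Finset ι).card ≤ (Icc 1 X).card := by
    apply card_le_card_of_injOn p
    · intro a _
      simp only [coe_Icc, Set.mem_Icc]
      exact ⟨(hp a).one_lt.le, hX a⟩
    · exact hinj.injOn
  simpa using h

theorem supp_eq_empty_iff {p : ι → ℕ} (χ : Sys p) : supp χ = ∅ ↔ χ = 1 := by
  classical
  unfold supp
  rw [filter_eq_empty_iff]
  constructor
  · intro h
    funext a
    have := h (mem_univ a)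
    simpa using this
  · intro h a _
    simp [h]

theorem geom_aux (y : ℝ) (hy0 : 0 ≤ y) (hy : y ≤ 1 / 2) (n : ℕ) :
    ∑ i ∈ range n, y ^ i + 2 * y ^ n ≤ 2 := by
  induction n with
  | zero => simp
  | succ n ih =>
    rw [sum_range_succ, pow_succ]
    have : 0 ≤ y ^ n := pow_nonneg hy0 n
    nlinarith

theorem geom_aux2 (y : ℝ) (hy0 : 0 ≤ y) (hy : y ≤ 1 / 2) (s : ℕ) :
    ∑ i ∈ Ico 1 (s + 1), y ^ i ≤ 2 * y := by
  rw [sum_Ico_eq_sum_range]
  have h1 : ∀ i ∈ range (s + 1 - 1), y ^ (1 + i) = y * y ^ i := by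
    intro i _
    rw [pow_add, pow_one]
  rw [sum_congr rfl h1, ← mul_sum]
  have h2 := geom_aux y hy0 hy (s + 1 - 1)
  have h3 : 0 ≤ y ^ (s + 1 - 1) := pow_nonneg hy0 _
  nlinarith

open Classical in
theorem theta_zero_le (p : ι → ℕ) (hp : ∀ a, (p a).Prime) (hinj : Function.Injective p)
    (X : ℕ) (hX : ∀ a, p a ≤ X) (s : ℕ) (lam : ℝ) (hlam : 0 ≤ lam)
    (hy : (16 * s * X / Fintype.card ι : ℝ) ^ 4 * lam ≤ 1 / 240) :
    ∑ χ ∈ (univ : Finset (Sys p)).filter (fun χ => χ ≠ 1 ∧ (supp χ).card ≤ s ∧ bad χ),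
      lam ^ (supp χ).card ≤ 1 / 24 := by
  set y : ℝ := (16 * s * X / Fintype.card ι : ℝ) ^ 4 * lam with hydef
  have hy0 : 0 ≤ y := by positivity
  set Bd := (univ : Finset (Sys p)).filter (fun χ => χ ≠ 1 ∧ (supp χ).card ≤ s ∧ bad χ) with hBd
  have hmaps : ∀ χ ∈ Bd, (supp χ).card ∈ Ico 1 (s + 1) := by
    intro χ hχ
    rw [hBd, mem_filter] at hχ
    rw [mem_Ico]
    refine ⟨?_, by omega⟩
    rw [Nat.one_le_iff_ne_zero, Ne, card_eq_zero, supp_eq_empty_iff]
    exact hχ.2.1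
  rw [← sum_fiberwise_of_maps_to hmaps]
  have hterm : ∀ i ∈ Ico 1 (s + 1),
      ∑ χ ∈ Bd.filter (fun χ => (supp χ).card = i), lam ^ (supp χ).card ≤ 5 * y ^ i := by
    intro i hi
    rw [mem_Ico] at hi
    have h1 : ∑ χ ∈ Bd.filter (fun χ => (supp χ).card = i), lam ^ (supp χ).card =
        ((Bd.filter (fun χ => (supp χ).card = i)).card : ℝ) * lam ^ i := by
      rw [← nsmul_eq_mul, ← sum_const]
      apply sum_congr rfl
      intro χ hχ
      rw [(mem_filter.mp hχ).2]
    have h2 : ((Bd.filter (fun χ => (supp χ).card = i)).card : ℝ) ≤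
        (((univ : Finset (Sys p)).filter (fun χ => (supp χ).card = i ∧ bad χ)).card : ℝ) := by
      apply Nat.cast_le.mpr
      apply card_le_card
      intro χ hχ
      rw [mem_filter, hBd, mem_filter] at hχ
      rw [mem_filter]
      exact ⟨mem_univ _, hχ.2, hχ.1.2.2.2⟩
    have h3 := bad_count p hp hinj X hX i hi.1
    have h4 : ((4 * i).factorial : ℝ) ≤ (4 * (s : ℝ)) ^ (4 * i) := by
      have h5 : (4 * i).factorial ≤ (4 * i) ^ (4 * i) := Nat.factorial_le_pow _
      have h6 : ((4 * i) ^ (4 * i) : ℕ) ≤ (4 * s) ^ (4 * i) :=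
        Nat.pow_le_pow_left (by omega) _
      have h7 : ((4 * i).factorial : ℝ) ≤ ((4 * s) ^ (4 * i) : ℕ) := by
        exact_mod_cast h5.trans h6
      simpa using h7
    have h8 : 0 ≤ (4 * (X : ℝ) / Fintype.card ι) ^ (4 * i) := by positivity
    have h9 : 0 ≤ lam ^ i := pow_nonneg hlam i
    rw [h1]
    calc ((Bd.filter (fun χ => (supp χ).card = i)).card : ℝ) * lam ^ i
        ≤ (5 * (4 * i).factorial * (4 * X / Fintype.card ι) ^ (4 * i)) * lam ^ i :=
          mul_le_mul_of_nonneg_right (h2.trans h3) h9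
      _ ≤ (5 * (4 * (s : ℝ)) ^ (4 * i) * (4 * X / Fintype.card ι) ^ (4 * i)) * lam ^ i := by
          apply mul_le_mul_of_nonneg_right _ h9
          apply mul_le_mul_of_nonneg_right _ h8
          linarith
      _ = 5 * y ^ i := by
          have e1 : (16 * (s : ℝ) * X / Fintype.card ι) = (4 * (s : ℝ)) * (4 * X / Fintype.card ι) := by
            ring
          rw [hydef, e1]
          generalize (4 * (s : ℝ)) = A
          generalize (4 * (X : ℝ) / Fintype.card ι) = Bq
          rw [mul_pow _ lam, ← pow_mul, mul_pow A Bq (4 * i)]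
          ring
  calc ∑ i ∈ Ico 1 (s + 1), ∑ χ ∈ Bd.filter (fun χ => (supp χ).card = i), lam ^ (supp χ).card
      ≤ ∑ i ∈ Ico 1 (s + 1), 5 * y ^ i := sum_le_sum hterm
    _ = 5 * ∑ i ∈ Ico 1 (s + 1), y ^ i := by rw [mul_sum]
    _ ≤ 5 * (2 * y) := by
        have := geom_aux2 y hy0 (by linarith) s
        linarith
    _ ≤ 1 / 24 := by linarith

theorem one_add_inv_pow_le (s : ℕ) (hs1 : 1 ≤ s) : (1 + 1 / (s : ℝ)) ^ s ≤ 3 := by
  have hs0 : (0 : ℝ) < s := by exact_mod_cast hs1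
  have h1 : 1 + 1 / (s : ℝ) ≤ Real.exp (1 / (s : ℝ)) := by
    have := Real.add_one_le_exp (1 / (s : ℝ))
    linarith
  have h2 : (1 + 1 / (s : ℝ)) ^ s ≤ Real.exp (1 / (s : ℝ)) ^ s :=
    pow_le_pow_left₀ (by positivity) h1 s
  have h3 : Real.exp (1 / (s : ℝ)) ^ s = Real.exp 1 := by
    rw [← Real.exp_nat_mul]
    congr 1
    field_simp
  have h4 := Real.exp_one_lt_d9
  rw [h3] at h2
  linarith

open Classical in
/-- T5: greedy selection -/
theorem greedy (p : ι → ℕ) (hp : ∀ a, (p a).Prime) (hinj : Function.Injective p)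
    (X : ℕ) (hX : ∀ a, p a ≤ X) (s : ℕ) (hs1 : 1 ≤ s) (hs : 16 * s ≤ Fintype.card ι)
    (hy : (16 * s * X / Fintype.card ι : ℝ) ^ 4 * (s ^ 2 / (Fintype.card ι - s)) ≤ 1 / 240) :
    ∃ r : ℕ → ι, Set.InjOn r (Set.Iio s) ∧
      (∀ n ≤ s, ∑ χ ∈ (univ : Finset (Sys p)).filter (fun χ => χ ≠ 1 ∧ ¬ bad χ),
          (1 / (X : ℝ) ^ 2) ^ (supp χ).card *
            ∏ a ∈ (range n).image r, (‖1 + ev χ (p a)‖ ^ 2 / 4) ≤ 4 * (4 / 5 : ℝ) ^ n) ∧
      ∀ χ : Sys p, χ ≠ 1 → supp χ ⊆ (range s).image r → ¬ bad χ := by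
  have hcardpos : 0 < Fintype.card ι := by omega
  haveI : Nonempty ι := Fintype.card_pos_iff.mp hcardpos
  set c : ℝ := (Fintype.card ι : ℝ) with hc
  have hs0 : (0 : ℝ) < s := by exact_mod_cast hs1
  have hcs : 16 * (s : ℝ) ≤ c := by
    rw [hc]
    exact_mod_cast hs
  have hcs' : 0 < c - s := by linarith
  set lam : ℝ := (s : ℝ) ^ 2 / (c - s) with hlam
  have hlam0 : 0 < lam := by positivity
  have hcX : c ≤ X := by
    rw [hc]
    exact_mod_cast card_le_of_primes p hp hinj X hX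
  have hX0 : (0 : ℝ) < X := by linarith
  set G := (univ : Finset (Sys p)).filter (fun χ => χ ≠ 1 ∧ ¬ bad χ) with hG
  set Bd := (univ : Finset (Sys p)).filter (fun χ => χ ≠ 1 ∧ (supp χ).card ≤ s ∧ bad χ) with hBd
  set wt : Sys p → ℝ := fun χ => (1 / (X : ℝ) ^ 2) ^ (supp χ).card with hwt
  have hwt0 : ∀ χ, 0 ≤ wt χ := fun χ => by
    rw [hwt]
    positivity
  set Psi : Finset ι → ℝ := fun R => ∑ χ ∈ G, wt χ * ∏ a ∈ R, tt χ a with hPsi
  set Theta : Finset ι → ℝ := fun R => ∑ χ ∈ Bd, lam ^ (supp χ \ R).card with hTheta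
  have hPsi0 : ∀ R, 0 ≤ Psi R := fun R =>
    sum_nonneg (fun χ _ => mul_nonneg (hwt0 χ) (prod_nonneg (fun a _ => tt_nonneg χ a)))
  have hTheta0 : ∀ R, 0 ≤ Theta R := fun R => sum_nonneg (fun χ _ => by positivity)
  set Xi : ℕ → Finset ι → ℝ := fun n R =>
    1 / 8 * (5 / 4 : ℝ) ^ n * Psi R + (1 + 1 / (s : ℝ)) ^ (s - n) * Theta R with hXi
  have step : ∀ n < s, ∀ R : Finset ι, R.card = n →
      ∑ a ∈ Rᶜ, Xi (n + 1) (insert a R) ≤ ((Fintype.card ι : ℝ) - n) * Xi n R := by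
    intro n hn R hR
    have hn' : (n : ℝ) + 1 ≤ s := by exact_mod_cast hn
    have h1 := psi_step G (fun χ hχ => (mem_filter.mp hχ).2.2) wt hwt0 R
    have h2 := theta_step Bd s (fun χ hχ => (mem_filter.mp hχ).2.2.1) lam hlam0 R
    rw [hR] at h2
    have e1 : ∑ a ∈ Rᶜ, Xi (n + 1) (insert a R) =
        1 / 8 * (5 / 4 : ℝ) ^ (n + 1) * ∑ a ∈ Rᶜ, Psi (insert a R) +
          (1 + 1 / (s : ℝ)) ^ (s - (n + 1)) * ∑ a ∈ Rᶜ, Theta (insert a R) := by
      rw [hXi]
      simp only [sum_add_distrib, mul_sum]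
    have e2 : (1 + 1 / (s : ℝ)) ^ (s - n) =
        (1 + 1 / (s : ℝ)) ^ (s - (n + 1)) * (1 + 1 / (s : ℝ)) := by
      rw [← pow_succ]
      congr 1
      omega
    have e3 : (s : ℝ) / lam = (c - s) / s := by
      rw [hlam]
      field_simp
    have h3 : (c - n) + s / lam ≤ (c - n) * (1 + 1 / (s : ℝ)) := by
      rw [e3]
      have : (c - s) / s ≤ (c - n) / s := by
        apply div_le_div_of_nonneg_right _ hs0.le
        linarith
      have e4 : (c - n) * (1 + 1 / (s : ℝ)) = (c - n) + (c - n) / s := by ring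
      rw [e4]
      linarith
    have hA : 0 ≤ 1 / 8 * (5 / 4 : ℝ) ^ n := by positivity
    have hB : 0 ≤ (1 + 1 / (s : ℝ)) ^ (s - (n + 1)) := by positivity
    rw [e1]
    have h4 : 1 / 8 * (5 / 4 : ℝ) ^ (n + 1) * ∑ a ∈ Rᶜ, Psi (insert a R) ≤
        (c - n) * (1 / 8 * (5 / 4 : ℝ) ^ n * Psi R) := by
      calc 1 / 8 * (5 / 4 : ℝ) ^ (n + 1) * ∑ a ∈ Rᶜ, Psi (insert a R)
          ≤ 1 / 8 * (5 / 4 : ℝ) ^ (n + 1) * (3 / 4 * c * Psi R) :=
            mul_le_mul_of_nonneg_left h1 (by positivity)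
        _ = (15 / 16 * c) * (1 / 8 * (5 / 4 : ℝ) ^ n * Psi R) := by
            rw [pow_succ]
            ring
        _ ≤ (c - n) * (1 / 8 * (5 / 4 : ℝ) ^ n * Psi R) := by
            apply mul_le_mul_of_nonneg_right _ (mul_nonneg hA (hPsi0 R))
            linarith
    have h5 : (1 + 1 / (s : ℝ)) ^ (s - (n + 1)) * ∑ a ∈ Rᶜ, Theta (insert a R) ≤
        (c - n) * ((1 + 1 / (s : ℝ)) ^ (s - n) * Theta R) := by
      calc (1 + 1 / (s : ℝ)) ^ (s - (n + 1)) * ∑ a ∈ Rᶜ, Theta (insert a R)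
          ≤ (1 + 1 / (s : ℝ)) ^ (s - (n + 1)) * (((c - n) + s / lam) * Theta R) :=
            mul_le_mul_of_nonneg_left h2 hB
        _ ≤ (1 + 1 / (s : ℝ)) ^ (s - (n + 1)) * (((c - n) * (1 + 1 / (s : ℝ))) * Theta R) := by
            apply mul_le_mul_of_nonneg_left _ hB
            exact mul_le_mul_of_nonneg_right h3 (hTheta0 R)
        _ = (c - n) * ((1 + 1 / (s : ℝ)) ^ (s - n) * Theta R) := by
            rw [e2]
            ring
    have e5 : (c - n) * Xi n R = (c - n) * (1 / 8 * (5 / 4 : ℝ) ^ n * Psi R) +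
        (c - n) * ((1 + 1 / (s : ℝ)) ^ (s - n) * Theta R) := by
      rw [hXi]
      ring
    rw [e5]
    linarith
  obtain ⟨r, hrinj, hr⟩ := greedy_abstract Xi s (by omega) step
  have hXi0 : Xi 0 ∅ ≤ 1 / 2 := by
    have h1 : Psi ∅ ≤ 3 := by
      have h2 : Psi ∅ ≤ ∑ χ : Sys p, wt χ := by
        rw [hPsi]
        simp only [prod_empty, mul_one]
        exact sum_le_sum_of_subset_of_nonneg (subset_univ _) (fun χ _ _ => hwt0 χ)
      have h3 := sum_weight_le p hp X hX (1 / (X : ℝ) ^ 2) (by positivity)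
      have h4 : (X : ℝ) * (1 / (X : ℝ) ^ 2) * (Fintype.card ι : ℝ) ≤ 1 := by
        have : (X : ℝ) * (1 / (X : ℝ) ^ 2) * (Fintype.card ι : ℝ) = c / X := by
          rw [hc]
          field_simp
        rw [this, div_le_one hX0]
        exact hcX
      have h5 : Real.exp ((X : ℝ) * (1 / (X : ℝ) ^ 2) * (Fintype.card ι : ℝ)) ≤ Real.exp 1 :=
        Real.exp_le_exp.mpr h4
      have h6 := Real.exp_one_lt_d9
      linarith
    have h7 : Theta ∅ ≤ 1 / 24 := by
      have := theta_zero_le p hp hinj X hX s lam hlam0.le hy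
      rw [hTheta]
      simpa using this
    have h8 := one_add_inv_pow_le s hs1
    have h9 : (1 + 1 / (s : ℝ)) ^ s * Theta ∅ ≤ 3 * (1 / 24) :=
      mul_le_mul h8 h7 (hTheta0 ∅) (by norm_num)
    rw [hXi]
    simp only [pow_zero, mul_one, Nat.sub_zero]
    linarith
  refine ⟨r, hrinj, ?_, ?_⟩
  · intro n hn
    have h1 := (hr n hn).trans hXi0
    have h2 : 1 / 8 * (5 / 4 : ℝ) ^ n * Psi ((range n).image r) ≤ 1 / 2 := by
      have : 0 ≤ (1 + 1 / (s : ℝ)) ^ (s - n) * Theta ((range n).image r) :=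
        mul_nonneg (by positivity) (hTheta0 _)
      rw [hXi] at h1
      linarith
    have h3 : (4 / 5 : ℝ) ^ n * (5 / 4 : ℝ) ^ n = 1 := by
      rw [← mul_pow]
      norm_num
    have h4 : Psi ((range n).image r) = (4 / 5 : ℝ) ^ n * ((5 / 4 : ℝ) ^ n * Psi ((range n).image r)) := by
      rw [← mul_assoc, h3, one_mul]
    have h5 : Psi ((range n).image r) ≤ 4 * (4 / 5 : ℝ) ^ n := by
      rw [h4]
      have : (5 / 4 : ℝ) ^ n * Psi ((range n).image r) ≤ 4 := by linarith
      have h6 : (0 : ℝ) ≤ (4 / 5 : ℝ) ^ n := by positivity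
      nlinarith
    exact h5
  · intro χ hχ1 hsub hbad
    have hmem : χ ∈ Bd := by
      rw [hBd, mem_filter]
      refine ⟨mem_univ _, hχ1, ?_, hbad⟩
      calc (supp χ).card ≤ ((range s).image r).card := card_le_card hsub
        _ ≤ (range s).card := card_image_le
        _ = s := card_range s
    have h1 := (hr s le_rfl).trans hXi0
    have h2 : (1 : ℝ) ≤ Theta ((range s).image r) := by
      have h3 : lam ^ (supp χ \ (range s).image r).card ≤ Theta ((range s).image r) :=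
        single_le_sum (f := fun χ => lam ^ (supp χ \ (range s).image r).card)
          (fun χ _ => by positivity) hmem
      rw [sdiff_eq_empty_iff_subset.mpr hsub] at h3
      simpa using h3
    have h4 : 0 ≤ 1 / 8 * (5 / 4 : ℝ) ^ s * Psi ((range s).image r) :=
      mul_nonneg (by positivity) (hPsi0 _)
    rw [hXi] at h1
    simp only [Nat.sub_self, pow_zero, one_mul] at h1
    linarith

end Vale.Agent.Lib.P012
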