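import Vale.Agent.Lib.P012_helper7.GoodSeqAux
import Vale.Agent.Lib.P012_helper15.Greedy

namespace Vale.Agent.Lib.P012

open Finset

variable {ι : Type} [Fintype ι] [DecidableEq ι]

theorem exists_goodSeq (p : ι → ℕ) (hp : ∀ a, (p a).Prime) (hinj : Function.Injective p)
    (h5 : ∀ a, 5 ≤ p a)
    (X : ℕ) (hX : ∀ a, p a ≤ X) (s : ℕ) (hs1 : 1 ≤ s) (hs : 16 * s ≤ Fintype.card ι)
    (hy : (16 * s * X / Fintype.card ι : ℝ) ^ 4 * (s ^ 2 / (Fintype.card ι - s)) ≤ 1 / 240)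
    (K : ℕ) (hK : 8 * (X : ℝ) ^ 3 ≤ (5 / 4 : ℝ) ^ K) :
    ∃ P : ℕ → ℕ, GoodSeq P s K X := by
  obtain ⟨r, hrinj, hpot, hnb⟩ := greedy p hp hinj X hX s hs1 hs hy
  exact ⟨_, goodSeq_of_greedy p hp hinj h5 X hX s K hK r hrinj hpot hnb⟩

end Vale.Agent.Lib.P012
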