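import Vale.Agent.Lib.P012_helper15.GoodSeqExists
import Vale.Agent.Lib.P012_helper13.Params
import Vale.Agent.Lib.P012_helper28.Recursion
import Vale.Agent.Lib.P012_helper23.Egyptian

namespace Vale.Agent.Lib.P012

open Finset

/-- for every `k ≥ 12` there is `M ≥ 5 ^ (2 ^ k)` all of whose smaller numbers are sums of
at most `7016 k ^ 2` distinct divisors of `M`. -/
theorem exists_practical (k : ℕ) (hk : 12 ≤ k) :
    ∃ M : ℕ, 5 ^ (2 ^ k) ≤ M ∧ ∀ m < M, ∃ D : Finset ℕ, (∀ d ∈ D, d ∣ M) ∧ ∑ d ∈ D, d = m ∧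
      (D.card : ℝ) ≤ 7016 * (k : ℝ) ^ 2 := by
  obtain ⟨h1, h2, h3⟩ := params k hk
  set X : ℕ := 2 ^ (16 * k) with hX
  set s : ℕ := 2 ^ k with hs
  set S : Finset ℕ := (Icc 5 X).filter Nat.Prime with hS
  have hmem : ∀ q : S, (q : ℕ).Prime ∧ 5 ≤ (q : ℕ) ∧ (q : ℕ) ≤ X := by
    intro q
    have h := q.2
    have h' : (q : ℕ) ∈ (Icc 5 X).filter Nat.Prime := h
    rw [mem_filter, mem_Icc] at h'
    exact ⟨h'.2, h'.1.1, h'.1.2⟩
  have hcard : Fintype.card S = S.card := Fintype.card_coe S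
  obtain ⟨P, hP⟩ := exists_goodSeq (ι := S) (fun q => (q : ℕ)) (fun q => (hmem q).1)
    Subtype.val_injective (fun q => (hmem q).2.1) X (fun q => (hmem q).2.2) s
    (Nat.one_le_two_pow) (by rw [hcard]; exact h1) (by rw [hcard]; exact h2)
    (192 * k + 12) h3
  set E : ℕ := 16 * k with hE
  refine ⟨2 ^ E * ∏ i ∈ range s, P i, ?_, ?_⟩
  · have h5 : 5 ^ s ≤ ∏ i ∈ range s, P i := by
      calc 5 ^ s = ∏ _i ∈ range s, 5 := by simp
        _ ≤ ∏ i ∈ range s, P i :=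
          prod_le_prod' (fun i hi => hP.five_le i (mem_range.mp hi))
    calc 5 ^ s ≤ ∏ i ∈ range s, P i := h5
      _ ≤ 2 ^ E * ∏ i ∈ range s, P i := Nat.le_mul_of_pos_left _ (by positivity)
  · intro m hm
    obtain ⟨D, hD1, hD2, hD3⟩ := rep_of_goodSeq P s (192 * k + 12) X E hP le_rfl (by omega) s
      le_rfl m hm
    refine ⟨D, hD1, hD2, hD3.trans ?_⟩
    have hk' : (12 : ℝ) ≤ k := by exact_mod_cast hk
    have hlog : Real.log ((s : ℝ) + 1) ≤ (k : ℝ) + 1 := by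
      have e1 : (s : ℝ) + 1 ≤ 2 ^ (k + 1) := by
        have : (s : ℝ) = 2 ^ k := by
          rw [hs]
          push_cast
          rfl
        rw [this, pow_succ]
        have : (1 : ℝ) ≤ 2 ^ k := one_le_pow₀ (by norm_num)
        linarith
      have e2 : Real.log ((s : ℝ) + 1) ≤ Real.log (2 ^ (k + 1)) :=
        Real.log_le_log (by positivity) e1
      rw [Real.log_pow] at e2
      have e3 : Real.log 2 ≤ 1 := by
        have := Real.log_two_lt_d9
        linarith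
      have e4 : ((k + 1 : ℕ) : ℝ) * Real.log 2 ≤ ((k + 1 : ℕ) : ℝ) * 1 :=
        mul_le_mul_of_nonneg_left e3 (by positivity)
      push_cast at e2 e4
      linarith
    have hK0 : (0 : ℝ) ≤ 4 * (((192 * k + 12 : ℕ) : ℝ) + 1) := by positivity
    have h6 : 4 * (((192 * k + 12 : ℕ) : ℝ) + 1) * Real.log ((s : ℝ) + 1) ≤
        4 * (((192 * k + 12 : ℕ) : ℝ) + 1) * ((k : ℝ) + 1) :=
      mul_le_mul_of_nonneg_left hlog hK0
    rw [hE]
    push_cast at h6 ⊢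
    nlinarith

theorem main_explicit (b : ℕ) (hb1 : Real.exp (Real.exp 13) ≤ (b : ℝ)) (a : ℕ) (ha : 1 ≤ a)
    (hab : a < b) :
    ∃ S : Finset ℕ, (∀ n ∈ S, 2 ≤ n) ∧
      (S.card : ℝ) ≤ 130000 * (Real.log (Real.log b)) ^ 2 ∧
      ∑ n ∈ S, (1 / n : ℚ) = a / b := by
  have hbpos : (0 : ℝ) < b := lt_of_lt_of_le (Real.exp_pos _) hb1
  set L : ℝ := Real.log b with hL
  have hL1 : Real.exp 13 ≤ L := by
    rw [hL, Real.le_log_iff_exp_le hbpos]
    exact hb1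
  have hLpos : 0 < L := lt_of_lt_of_le (Real.exp_pos _) hL1
  set LL : ℝ := Real.log L with hLL
  have hLL1 : 13 ≤ LL := by
    rw [hLL, Real.le_log_iff_exp_le hLpos]
    exact hL1
  have hlog2 : (0.69 : ℝ) < Real.log 2 := by
    have := Real.log_two_gt_d9
    linarith
  have hlog2pos : 0 < Real.log 2 := by linarith
  set k1 : ℕ := ⌈LL / Real.log 2⌉₊ with hk1
  set k : ℕ := k1 + 12 with hk
  obtain ⟨M, hM1, hM2⟩ := exists_practical k (by omega)
  -- `b ≤ M`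
  have hk1le : LL / Real.log 2 ≤ (k1 : ℝ) := Nat.le_ceil _
  have h2k : L ≤ (2 : ℝ) ^ k := by
    have e1 : LL ≤ (k : ℝ) * Real.log 2 := by
      have : LL ≤ (k1 : ℝ) * Real.log 2 := by
        rwa [div_le_iff₀ hlog2pos] at hk1le
      have e2 : (k1 : ℝ) ≤ (k : ℝ) := by
        rw [hk]
        push_cast
        linarith
      nlinarith
    have e3 : Real.exp LL ≤ Real.exp ((k : ℝ) * Real.log 2) := Real.exp_le_exp.mpr e1
    rw [hLL, Real.exp_log hLpos, Real.exp_nat_mul, Real.exp_log (by norm_num)] at e3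
    exact e3
  have hbM : b ≤ M := by
    have e1 : (b : ℝ) ≤ (5 : ℝ) ^ (2 ^ k) := by
      have e2 : (b : ℝ) = Real.exp L := by
        rw [hL, Real.exp_log hbpos]
      have e3 : Real.exp L ≤ Real.exp (((2 ^ k : ℕ) : ℝ) * 1) := by
        apply Real.exp_le_exp.mpr
        push_cast
        linarith
      rw [Real.exp_nat_mul] at e3
      have e4 : Real.exp 1 ≤ 5 := by
        have := Real.exp_one_lt_d9
        linarith
      have e5 : Real.exp 1 ^ (2 ^ k) ≤ (5 : ℝ) ^ (2 ^ k) :=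
        pow_le_pow_left₀ (Real.exp_pos 1).le e4 _
      rw [e2]
      exact e3.trans e5
    have e6 : (b : ℝ) ≤ (M : ℝ) := e1.trans (by exact_mod_cast hM1)
    exact_mod_cast e6
  obtain ⟨S, hS1, hS2, hS3⟩ := egyptian_of_rep M (7016 * (k : ℝ) ^ 2) hM2 a b ha hab hbM
  refine ⟨S, hS1, hS2.trans ?_, hS3⟩
  have hk1lt : (k1 : ℝ) < LL / Real.log 2 + 1 := Nat.ceil_lt_add_one (by positivity)
  have hdiv : LL / Real.log 2 ≤ 1.45 * LL := by
    rw [div_le_iff₀ hlog2pos]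
    nlinarith
  have hk3 : (k : ℝ) ≤ 3 * LL := by
    rw [hk]
    push_cast
    linarith
  have hk0 : (0 : ℝ) ≤ k := by positivity
  have hsq : (k : ℝ) ^ 2 ≤ 9 * LL ^ 2 := by nlinarith
  linarith

theorem main : ∃ C : ℝ, ∃ b₀ : ℕ, ∀ b ≥ b₀, ∀ a, 1 ≤ a → a < b →
    ∃ S : Finset ℕ, (∀ n ∈ S, 2 ≤ n) ∧ (S.card : ℝ) ≤ C * (Real.log (Real.log b)) ^ 2 ∧
      ∑ n ∈ S, (1 / n : ℚ) = a / b := by
  refine ⟨130000, ⌈Real.exp (Real.exp 13)⌉₊, ?_⟩
  intro b hb a ha hab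
  exact main_explicit b ((Nat.le_ceil _).trans (by exact_mod_cast hb)) a ha hab

end Vale.Agent.Lib.P012
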