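import Vale.Agent.Lib.P012_helper15.Defs

namespace Vale.Agent.Lib.P012

open Finset

/-! ### generalities on periodic functions -/

theorem periodic_mul_add (g : ℕ → ℂ) (P : ℕ) (hper : ∀ n, g (n + P) = g n) (k x : ℕ) :
    g (P * k + x) = g x := by
  induction k with
  | zero => simp
  | succ k ih =>
    have : P * (k + 1) + x = (P * k + x) + P := by ring
    rw [this, hper, ih]

theorem sum_range_mul_eq (F : ℕ → ℂ) (P k : ℕ) :
    ∑ n ∈ range (P * k), F n = ∑ j ∈ range k, ∑ c ∈ range P, F (P * j + c) := by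
  induction k with
  | zero => simp
  | succ k ih =>
    rw [Nat.mul_succ, sum_range_add, ih, sum_range_succ]

theorem norm_sum_range_le_of_periodic (g : ℕ → ℂ) (P : ℕ) (hP : 0 < P)
    (hper : ∀ n, g (n + P) = g n) (hz : ∑ n ∈ range P, g n = 0) (hb : ∀ n, ‖g n‖ ≤ 1) (N : ℕ) :
    ‖∑ n ∈ range N, g n‖ ≤ P := by
  have h0 : ∀ k, ∑ n ∈ range (P * k), g n = 0 := by
    intro k
    rw [sum_range_mul_eq]
    apply sum_eq_zero
    intro j _
    rw [← hz]
    apply sum_congr rfl
    intro c _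
    exact periodic_mul_add g P hper j c
  have hN : N = P * (N / P) + N % P := (Nat.div_add_mod N P).symm
  rw [hN, sum_range_add, h0, zero_add]
  calc ‖∑ x ∈ range (N % P), g (P * (N / P) + x)‖
      ≤ ∑ x ∈ range (N % P), ‖g (P * (N / P) + x)‖ := norm_sum_le _ _
    _ ≤ ∑ _x ∈ range (N % P), (1 : ℝ) := sum_le_sum (fun x _ => hb _)
    _ = ((N % P : ℕ) : ℝ) := by simp
    _ ≤ P := by exact_mod_cast (Nat.mod_lt N hP).le

theorem sum_range_natCast_zmod (q : ℕ) [NeZero q] (φ : ZMod q → ℂ) :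
    ∑ k ∈ range q, φ (k : ZMod q) = ∑ x : ZMod q, φ x := by
  apply sum_nbij' (fun k : ℕ => (k : ZMod q)) (fun x : ZMod q => x.val)
  · intro k _
    exact mem_univ _
  · intro x _
    exact mem_range.mpr (ZMod.val_lt x)
  · intro k hk
    exact ZMod.val_natCast_of_lt (mem_range.mp hk)
  · intro x _
    exact ZMod.natCast_zmod_val x
  · intro k _
    rfl

theorem sum_zero_of_coprime (q P' : ℕ) [NeZero q] (hcop : Nat.Coprime P' q) (G : ZMod q → ℂ)
    (hG : ∑ x, G x = 0) (h : ℕ → ℂ) (hh : ∀ n, h (n + P') = h n) :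
    ∑ n ∈ range (P' * q), G (n : ZMod q) * h n = 0 := by
  rw [sum_range_mul_eq, sum_comm]
  apply sum_eq_zero
  intro c _
  have h1 : ∀ j ∈ range q, G ((P' * j + c : ℕ) : ZMod q) * h (P' * j + c) =
      G ((P' : ZMod q) * (j : ZMod q) + c) * h c := by
    intro j _
    rw [periodic_mul_add h P' hh]
    push_cast
    rfl
  rw [sum_congr rfl h1, ← sum_mul,
    sum_range_natCast_zmod q (fun x => G ((P' : ZMod q) * x + c))]
  have h2 : ∑ x : ZMod q, G ((P' : ZMod q) * x + c) = ∑ x : ZMod q, G x := by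
    set u := ZMod.unitOfCoprime P' hcop with hu
    have hu' : (u : ZMod q) = (P' : ZMod q) := ZMod.coe_unitOfCoprime P' hcop
    apply Fintype.sum_bijective (fun x : ZMod q => (P' : ZMod q) * x + c)
    · constructor
      · intro x y hxy
        have : (u : ZMod q) * x = (u : ZMod q) * y := by
          rw [hu']
          exact add_right_cancel hxy
        exact u.isUnit.mul_left_cancel this
      · intro y
        refine ⟨(↑(u⁻¹) : ZMod q) * (y - c), ?_⟩
        show (P' : ZMod q) * ((↑(u⁻¹) : ZMod q) * (y - c)) + c = y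
        rw [← hu', ← mul_assoc, Units.mul_inv, one_mul]
        ring
    · intro x
      rfl
  rw [h2, hG, zero_mul]

/-! ### the local factors -/

open Classical in
/-- the local factor as a function on residues. -/
noncomputable def locZ {q : ℕ} (ψ : DirichletCharacter ℂ q) (x : ZMod q) : ℂ :=
  if ψ = 1 then 1 else ψ x

theorem loc_eq_locZ {q : ℕ} (ψ : DirichletCharacter ℂ q) (n : ℕ) :
    loc ψ n = locZ ψ (n : ZMod q) := rfl

theorem loc_mul {q : ℕ} (ψ : DirichletCharacter ℂ q) (m n : ℕ) :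
    loc ψ (m * n) = loc ψ m * loc ψ n := by
  unfold loc
  split_ifs
  · simp
  · push_cast
    exact map_mul ψ _ _

theorem loc_one_right {q : ℕ} (ψ : DirichletCharacter ℂ q) : loc ψ 1 = 1 := by
  unfold loc
  split_ifs
  · rfl
  · simp

theorem norm_loc_le_one {q : ℕ} (ψ : DirichletCharacter ℂ q) (n : ℕ) : ‖loc ψ n‖ ≤ 1 := by
  unfold loc
  split_ifs
  · simp
  · exact DirichletCharacter.norm_le_one ψ _

theorem loc_add_of_dvd {q : ℕ} (ψ : DirichletCharacter ℂ q) (n P : ℕ) (h : q ∣ P) :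
    loc ψ (n + P) = loc ψ n := by
  have : ((n + P : ℕ) : ZMod q) = (n : ZMod q) := by
    push_cast
    rw [(ZMod.natCast_eq_zero_iff P q).mpr h, add_zero]
  rw [loc_eq_locZ, loc_eq_locZ, this]

theorem loc_one_left {q : ℕ} (n : ℕ) : loc (1 : DirichletCharacter ℂ q) n = 1 := by
  unfold loc
  simp

theorem sum_locZ_mul_conj_eq_zero {q : ℕ} [NeZero q] (ψ ψ' : DirichletCharacter ℂ q)
    (h : ψ ≠ ψ') : ∑ x : ZMod q, locZ ψ x * (starRingEnd ℂ) (locZ ψ' x) = 0 := by
  unfold locZ
  by_cases h1 : ψ = 1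
  · have h2 : ψ' ≠ 1 := fun h2 => h (h1.trans h2.symm)
    simp only [h1, if_true, h2, if_false, one_mul]
    rw [← map_sum, MulChar.sum_eq_zero_of_ne_one h2, map_zero]
  · by_cases h2 : ψ' = 1
    · simp only [h1, if_false, h2, if_true, map_one, mul_one]
      exact MulChar.sum_eq_zero_of_ne_one h1
    · simp only [h1, if_false, h2]
      have h3 : ψ * ψ'⁻¹ ≠ 1 := by
        intro h3
        exact h (mul_inv_eq_one.mp h3)
      have h4 : ∀ x : ZMod q, ψ x * (starRingEnd ℂ) (ψ' x) = (ψ * ψ'⁻¹) x := by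
        intro x
        rw [MulChar.mul_apply, ← MulChar.star_apply']
        rfl
      simp only [h4]
      exact MulChar.sum_eq_zero_of_ne_one h3

variable {ι : Type} [Fintype ι] [DecidableEq ι]

theorem ev_mul (p : ι → ℕ) (χ : Sys p) (m n : ℕ) : ev χ (m * n) = ev χ m * ev χ n := by
  unfold ev
  rw [← prod_mul_distrib]
  exact prod_congr rfl (fun a _ => loc_mul _ _ _)

theorem ev_one_right (p : ι → ℕ) (χ : Sys p) : ev χ 1 = 1 := by
  unfold ev
  exact prod_eq_one (fun a _ => loc_one_right _)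

theorem norm_ev_le_one (p : ι → ℕ) (χ : Sys p) (n : ℕ) : ‖ev χ n‖ ≤ 1 := by
  unfold ev
  rw [norm_prod]
  exact prod_le_one (fun a _ => norm_nonneg _) (fun a _ => norm_loc_le_one _ _)

theorem notMem_supp {p : ι → ℕ} (χ : Sys p) (a : ι) : a ∉ supp χ ↔ χ a = 1 := by
  classical
  unfold supp
  simp

theorem quasi_orth (p : ι → ℕ) (hp : ∀ a, (p a).Prime) (hinj : Function.Injective p)
    (X : ℕ) (hX : ∀ a, p a ≤ X) (χ χ' : Sys p) (hne : χ ≠ χ') (i : ℕ)
    (h1 : (supp χ).card ≤ i) (h2 : (supp χ').card ≤ i) (N : ℕ) :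
    ‖∑ n ∈ range N, ev χ n * (starRingEnd ℂ) (ev χ' n)‖ ≤ (X : ℝ) ^ (2 * i) := by
  obtain ⟨a0, ha0⟩ := Function.ne_iff.mp hne
  have : NeZero (p a0) := ⟨(hp a0).ne_zero⟩
  set U := supp χ ∪ supp χ' with hU
  have ha0U : a0 ∈ U := by
    by_contra hcon
    rw [hU, mem_union, not_or, notMem_supp, notMem_supp] at hcon
    exact ha0 (hcon.1.trans hcon.2.symm)
  set P' := ∏ a ∈ U.erase a0, p a with hP'
  set ga : ι → ℕ → ℂ := fun a n => loc (χ a) n * (starRingEnd ℂ) (loc (χ' a) n) with hga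
  set h : ℕ → ℂ := fun n => ∏ a ∈ univ.erase a0, ga a n with hh
  set G : ZMod (p a0) → ℂ := fun x => locZ (χ a0) x * (starRingEnd ℂ) (locZ (χ' a0) x) with hG
  have hg : ∀ n : ℕ, ev χ n * (starRingEnd ℂ) (ev χ' n) = G (n : ZMod (p a0)) * h n := by
    intro n
    unfold ev
    rw [map_prod, ← prod_mul_distrib, ← mul_prod_erase univ _ (mem_univ a0)]
    rfl
  have hhper : ∀ n, h (n + P') = h n := by
    intro n
    apply prod_congr rfl
    intro a ha
    have haa : a ≠ a0 := (mem_erase.mp ha).1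
    by_cases haU : a ∈ U
    · have hdvd : p a ∣ P' := dvd_prod_of_mem p (mem_erase.mpr ⟨haa, haU⟩)
      simp only [hga]
      rw [loc_add_of_dvd _ _ _ hdvd, loc_add_of_dvd _ _ _ hdvd]
    · rw [hU, mem_union, not_or, notMem_supp, notMem_supp] at haU
      simp only [hga]
      rw [haU.1, haU.2]
      simp [loc_one_left]
  have hcop : Nat.Coprime P' (p a0) := by
    apply Nat.Coprime.prod_left
    intro a ha
    have haa : a ≠ a0 := (mem_erase.mp ha).1
    exact (Nat.coprime_primes (hp a) (hp a0)).mpr (fun e => haa (hinj e))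
  have hzero := sum_zero_of_coprime (p a0) P' hcop G
    (sum_locZ_mul_conj_eq_zero (χ a0) (χ' a0) ha0) h hhper
  have hP'pos : 0 < P' := prod_pos (fun a _ => (hp a).pos)
  have hPpos : 0 < P' * p a0 := Nat.mul_pos hP'pos (hp a0).pos
  have hper : ∀ n : ℕ, G ((n + P' * p a0 : ℕ) : ZMod (p a0)) * h (n + P' * p a0) =
      G (n : ZMod (p a0)) * h n := by
    intro n
    have e1 : ((n + P' * p a0 : ℕ) : ZMod (p a0)) = (n : ZMod (p a0)) := by
      push_cast
      simp
    have e2 : h (n + P' * p a0) = h n := by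
      have := periodic_mul_add h P' hhper (p a0) n
      rw [add_comm] at this
      exact this
    rw [e1, e2]
  have hb : ∀ n : ℕ, ‖G (n : ZMod (p a0)) * h n‖ ≤ 1 := by
    intro n
    rw [← hg, norm_mul, RCLike.norm_conj]
    exact mul_le_one₀ (norm_ev_le_one p χ n) (norm_nonneg _) (norm_ev_le_one p χ' n)
  have hmain := norm_sum_range_le_of_periodic (fun n : ℕ => G (n : ZMod (p a0)) * h n) (P' * p a0)
    hPpos hper hzero hb N
  rw [sum_congr rfl (fun n _ => hg n)]
  refine hmain.trans ?_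
  have hPU : P' * p a0 = ∏ a ∈ U, p a := by
    rw [mul_comm, hP']
    exact mul_prod_erase U p ha0U
  have hX1 : 1 ≤ X := (hp a0).one_lt.le.trans (hX a0)
  have hcardU : U.card ≤ 2 * i := by
    calc U.card ≤ (supp χ).card + (supp χ').card := card_union_le _ _
      _ ≤ 2 * i := by omega
  have hle : P' * p a0 ≤ X ^ (2 * i) := by
    rw [hPU]
    calc ∏ a ∈ U, p a ≤ X ^ U.card := prod_le_pow_card _ _ _ (fun a _ => hX a)
      _ ≤ X ^ (2 * i) := Nat.pow_le_pow_right hX1 hcardU
  exact_mod_cast hle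

end Vale.Agent.Lib.P012
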